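import Vale.Agent.P102.Nice

/-! Definitions for the proof of multiple mixing (P102). See skel/P102/BLUEPRINT.md. -/

open MeasureTheory ProbabilityTheory Filter Topology Set
open scoped ComplexConjugate

noncomputable section

namespace Vale.Agent.P102

/-- Probability measures. -/
abbrev PM (K : Type) [MeasurableSpace K] : Type := ProbabilityMeasure K

section Maps
variable {K L N : Type} [TopologicalSpace K] [MeasurableSpace K] [Nice K]
  [TopologicalSpace L] [MeasurableSpace L] [Nice L]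
  [TopologicalSpace N] [MeasurableSpace N] [Nice N]

/-- Push-forward of probability measures along a continuous map. -/
def pmap (f : C(K, L)) : C(PM K, PM L) :=
  ⟨fun μ => μ.map f.continuous.measurable.aemeasurable,
    ProbabilityMeasure.continuous_map f.continuous⟩

@[simp] theorem coe_pmap (f : C(K, L)) (μ : PM K) :
    ((pmap f μ : PM L) : Measure L) = (μ : Measure K).map f := rfl

theorem pmap_pmap (g : C(L, N)) (f : C(K, L)) (μ : PM K) :
    pmap g (pmap f μ) = pmap (g.comp f) μ := by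
  apply ProbabilityMeasure.toMeasure_injective
  simp only [coe_pmap]
  rw [Measure.map_map g.continuous.measurable f.continuous.measurable]; rfl

theorem pmap_comp (g : C(L, N)) (f : C(K, L)) : (pmap g).comp (pmap f) = pmap (g.comp f) :=
  ContinuousMap.ext fun μ => pmap_pmap g f μ

@[simp] theorem pmap_id (μ : PM K) : pmap (ContinuousMap.id K) μ = μ := by
  apply ProbabilityMeasure.toMeasure_injective
  simp [coe_pmap]

theorem ev_pmap (g : C(L, ℝ)) (f : C(K, L)) (μ : PM K) : ev g (pmap f μ) = ev (g.comp f) μ := by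
  simp only [ev_apply, coe_pmap]
  rw [integral_map f.continuous.measurable.aemeasurable g.continuous.aestronglyMeasurable]; rfl

theorem measurePreserving_pmap (f : C(K, L)) (μ : PM K) :
    MeasurePreserving f (μ : Measure K) (pmap f μ : PM L) := ⟨f.continuous.measurable, rfl⟩

/-- Pull an almost-everywhere statement back along a push-forward. -/
theorem ae_of_ae_pmap (f : C(K, L)) (μ : PM K) {P : L → Prop}
    (h : ∀ᵐ y ∂((pmap f μ : PM L) : Measure L), P y) : ∀ᵐ x ∂(μ : Measure K), P (f x) :=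
  ae_of_ae_map f.continuous.measurable.aemeasurable h

theorem pmap_congr {f g : C(K, L)} {μ : PM K} (h : ∀ᵐ x ∂(μ : Measure K), f x = g x) :
    pmap f μ = pmap g μ := by
  apply ProbabilityMeasure.toMeasure_injective
  exact Measure.map_congr h

/-- The coordinatewise map. -/
def cpi (ι : Type) (f : C(K, L)) : C(ι → K, ι → L) :=
  ⟨fun w i => f (w i), by fun_prop⟩

/-- A coordinate. -/
def cev {ι : Type} (K : Type) [TopologicalSpace K] (i : ι) : C(ι → K, K) :=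
  ⟨fun w => w i, continuous_apply i⟩

/-- Restriction to a set of coordinates. -/
def crs {ι : Type} (K : Type) [TopologicalSpace K] (S : Set ι) : C(ι → K, S → K) :=
  ⟨fun w i => w i, by fun_prop⟩

omit [MeasurableSpace K] [Nice K] [MeasurableSpace L] [Nice L] in
@[simp] theorem cpi_apply (ι : Type) (f : C(K, L)) (w : ι → K) (i : ι) :
    cpi ι f w i = f (w i) := rfl

omit [MeasurableSpace K] [Nice K] in
@[simp] theorem cev_apply {ι : Type} (i : ι) (w : ι → K) : cev K i w = w i := rfl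

omit [MeasurableSpace K] [Nice K] in
@[simp] theorem crs_apply {ι : Type} (S : Set ι) (w : ι → K) (i : S) : crs K S w i = w i := rfl

/-- First marginal of a law on a product. -/
def pfst (ρ : PM (K × L)) : PM K := pmap ContinuousMap.fst ρ

/-- Second marginal of a law on a product. -/
def psnd (ρ : PM (K × L)) : PM L := pmap ContinuousMap.snd ρ

theorem ae_of_ae_pfst (ρ : PM (K × L)) {P : K → Prop}
    (h : ∀ᵐ y ∂(pfst ρ : Measure K), P y) : ∀ᵐ q ∂(ρ : Measure (K × L)), P q.1 :=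
  ae_of_ae_pmap ContinuousMap.fst ρ h

theorem ae_of_ae_psnd (ρ : PM (K × L)) {P : L → Prop}
    (h : ∀ᵐ y ∂(psnd ρ : Measure L), P y) : ∀ᵐ q ∂(ρ : Measure (K × L)), P q.2 :=
  ae_of_ae_pmap ContinuousMap.snd ρ h

/-- Limit along an ultrafilter in a compact space. -/
def ulim {I : Type} (p : Ultrafilter I) (u : I → K) : K := (Ultrafilter.map u p).lim

theorem tendsto_ulim {I : Type} (p : Ultrafilter I) (u : I → K) :
    Tendsto u (p : Filter I) (𝓝 (ulim p u)) := (Ultrafilter.map u p).le_nhds_lim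

theorem ulim_eq {I : Type} {p : Ultrafilter I} {u : I → K} {x : K}
    (h : Tendsto u (p : Filter I) (𝓝 x)) : ulim p u = x :=
  tendsto_nhds_unique (tendsto_ulim p u) h

theorem map_ulim {I : Type} (p : Ultrafilter I) (u : I → K) (g : C(K, L)) :
    g (ulim p u) = ulim p fun i => g (u i) :=
  (ulim_eq ((g.continuous.tendsto _).comp (tendsto_ulim p u))).symm

@[simp] theorem ulim_const {I : Type} (p : Ultrafilter I) (x : K) : ulim p (fun _ => x) = x :=
  ulim_eq tendsto_const_nhds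

/-- Martingale condition for a law on `D × PM K` with prescribed conditional barycenter `s`. -/
def MartS (ρ : PM (N × PM K)) (s : N → PM K) : Prop :=
  ∀ (f : C(K, ℝ)) (Ψ : C(N, ℝ)),
    ∫ q, Ψ q.1 * ev f q.2 ∂(ρ : Measure (N × PM K)) =
      ∫ q, Ψ q.1 * ev f (s q.1) ∂(ρ : Measure (N × PM K))

/-- Martingale pair (refinement). -/
def Mart (ρ : PM (PM K × PM K)) : Prop := MartS ρ id

/-- The pair preserves the integrals of the functions in `F`. -/
def Pres (F : Set C(K, ℝ)) (ρ : PM (PM K × PM K)) : Prop :=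
  ∀ᵐ q ∂(ρ : Measure (PM K × PM K)), ∀ f ∈ F, ev f q.2 = ev f q.1

/-- Functions pulled back from the base. -/
def baseF (π : C(K, L)) : Set C(K, ℝ) := {f | ∃ u : C(L, ℝ), f = u.comp π}

/-- Products of functions of single coordinates over a set of coordinates in `𝒮`. -/
def prodF {α : Type} (K : Type) [TopologicalSpace K] (𝒮 : Set (Set α)) : Set C(α → K, ℝ) :=
  {f | ∃ (S : Finset α) (h : α → C(K, ℝ)), (S : Set α) ∈ 𝒮 ∧ ∀ w, f w = ∏ s ∈ S, h s (w s)}

/-- `μ` is the barycenter of `ξ`. -/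
def IsBary (ξ : PM (PM K)) (μ : PM K) : Prop :=
  (ξ : Measure (PM K)).bind (fun ν => (ν : Measure K)) = (μ : Measure K)

/-- The variational formula for the squared norm of the conditional expectation of `h`
given `ψ`. -/
def VV (θ : PM K) (h : K → ℝ) (ψ : C(K, L)) : ℝ :=
  ⨆ G : C(L, ℝ), 2 * ∫ w, h w * G (ψ w) ∂(θ : Measure K) - ∫ w, G (ψ w) ^ 2 ∂(θ : Measure K)

end Maps

section Action
variable {K L : Type} [TopologicalSpace K] [MeasurableSpace K] [Nice K]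
  [AddAction ℤ K] [ContinuousConstVAdd ℤ K]
  [TopologicalSpace L] [MeasurableSpace L] [Nice L] [AddAction ℤ L] [ContinuousConstVAdd ℤ L]

/-- The time `n` map. -/
def sh (K : Type) [TopologicalSpace K] [AddAction ℤ K] [ContinuousConstVAdd ℤ K] (n : ℤ) :
    C(K, K) := ⟨fun w => n +ᵥ w, continuous_const_vadd n⟩

omit [MeasurableSpace K] [Nice K] in
@[simp] theorem sh_apply (n : ℤ) (w : K) : sh K n w = n +ᵥ w := rfl

instance pmAction : AddAction ℤ (PM K) where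
  vadd n μ := pmap (sh K n) μ
  zero_vadd μ := by
    change pmap (sh K 0) μ = μ
    have : sh K 0 = ContinuousMap.id K := by ext w; simp
    rw [this, pmap_id]
  add_vadd m n μ := by
    change pmap (sh K (m + n)) μ = pmap (sh K m) (pmap (sh K n) μ)
    rw [pmap_pmap]; congr 2; ext w; simp [add_vadd]

theorem vadd_pm (n : ℤ) (μ : PM K) : n +ᵥ μ = pmap (sh K n) μ := rfl

instance : ContinuousConstVAdd ℤ (PM K) := ⟨fun n => (pmap (sh K n)).continuous⟩

/-- Invariant law. -/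
def Inv (ρ : PM K) : Prop := ∀ n : ℤ, n +ᵥ ρ = ρ

/-- Equivariant map. -/
def Eqv (f : C(K, L)) : Prop := ∀ (n : ℤ) (w : K), f (n +ᵥ w) = n +ᵥ f w

theorem Eqv.pmap {f : C(K, L)} (hf : Eqv f) : Eqv (pmap f) := fun n μ => by
  rw [vadd_pm, vadd_pm, pmap_pmap, pmap_pmap]; congr 2; ext w; exact hf n w

theorem Inv.pmap {ρ : PM K} (h : Inv ρ) {f : C(K, L)} (hf : Eqv f) : Inv (pmap f ρ) :=
  fun n => by rw [← hf.pmap n ρ, h n]

theorem Inv.measurePreserving {ρ : PM K} (h : Inv ρ) (n : ℤ) :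
    MeasurePreserving (fun w : K => n +ᵥ w) (ρ : Measure K) (ρ : Measure K) := by
  have := measurePreserving_pmap (sh K n) ρ
  rwa [← vadd_pm, h n] at this

omit [MeasurableSpace K] [Nice K] [MeasurableSpace L] [Nice L] [ContinuousConstVAdd ℤ K]
  [ContinuousConstVAdd ℤ L] in
theorem eqv_fst : Eqv (ContinuousMap.fst : C(K × L, K)) := fun _ _ => rfl

omit [MeasurableSpace K] [Nice K] [MeasurableSpace L] [Nice L] [ContinuousConstVAdd ℤ K]
  [ContinuousConstVAdd ℤ L] in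
theorem eqv_snd : Eqv (ContinuousMap.snd : C(K × L, L)) := fun _ _ => rfl

omit [MeasurableSpace K] [Nice K] [ContinuousConstVAdd ℤ K] in
theorem eqv_cev {ι : Type} (i : ι) : Eqv (cev K i) := fun _ _ => rfl

omit [MeasurableSpace K] [Nice K] [ContinuousConstVAdd ℤ K] in
theorem eqv_crs {ι : Type} (S : Set ι) : Eqv (crs K S) := fun _ _ => rfl

omit [MeasurableSpace K] [Nice K] [MeasurableSpace L] [Nice L] [ContinuousConstVAdd ℤ K]
  [ContinuousConstVAdd ℤ L] in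
theorem Eqv.cpi {f : C(K, L)} (hf : Eqv f) (ι : Type) : Eqv (cpi ι f) :=
  fun n w => funext fun i => hf n (w i)

omit [MeasurableSpace K] [Nice K] [MeasurableSpace L] [Nice L] [ContinuousConstVAdd ℤ K]
  [ContinuousConstVAdd ℤ L] in
theorem Eqv.comp {N : Type} [TopologicalSpace N] [AddAction ℤ N] {g : C(L, N)} {f : C(K, L)}
    (hg : Eqv g) (hf : Eqv f) : Eqv (g.comp f) := fun n w => by
  simp only [ContinuousMap.comp_apply]; rw [hf n w, hg n]

/-- A random-measure system over the base `L` with measure `μY`. -/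
def Sys (π : C(K, L)) (μY : PM L) (𝔪 : PM (PM K)) : Prop :=
  Inv 𝔪 ∧ ∀ᵐ μ ∂(𝔪 : Measure (PM K)), pmap π μ = μY

/-- Every invariant refinement of `𝔪` preserving `F` is trivial. -/
def Sated (F : Set C(K, ℝ)) (𝔪 : PM (PM K)) : Prop :=
  ∀ ρ : PM (PM K × PM K), Inv ρ → pfst ρ = 𝔪 → Mart ρ → Pres F ρ →
    ∀ᵐ q ∂(ρ : Measure (PM K × PM K)), q.2 = q.1

variable {ι : Type} [Fintype ι]

/-- The row map `w ↦ (e l +ᵥ w)_l`. -/
def rmap (K : Type) [TopologicalSpace K] [AddAction ℤ K] [ContinuousConstVAdd ℤ K]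
    (e : ι → ℤ) : C(K, ι → K) :=
  ⟨fun w l => e l +ᵥ w, continuous_pi fun l => continuous_const_vadd (e l)⟩

omit [MeasurableSpace K] [Nice K] [Fintype ι] in
@[simp] theorem rmap_apply (e : ι → ℤ) (w : K) (l : ι) : rmap K e w l = e l +ᵥ w := rfl

omit [MeasurableSpace K] [Nice K] [Fintype ι] in
theorem eqv_rmap (e : ι → ℤ) : Eqv (rmap K e) := fun n w => funext fun l => by
  simp only [rmap_apply, Pi.vadd_apply, vadd_vadd, add_comm]

/-- The limit joining. -/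
def nuLim (p : Ultrafilter (ι → ℤ)) (μ : PM K) : PM (ι → K) :=
  ulim p fun e => pmap (rmap K e) μ

/-- The row limit of a random measure. -/
def rowLim (p : Ultrafilter (ι → ℤ)) (𝔪 : PM (PM K)) : PM (PM (ι → K)) :=
  ulim p fun e => pmap (pmap (rmap K e)) 𝔪

/-- The row limit of a pair of random measures. -/
def rowLim2 (p : Ultrafilter (ι → ℤ)) (ρ : PM (PM K × PM L)) :
    PM (PM (ι → K) × PM (ι → L)) :=
  ulim p fun e => pmap ((pmap (rmap K e)).prodMap (pmap (rmap L e))) ρ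

/-- Expected squared norm of the conditional expectation of `h (w i)` given the other slots. -/
def val (p : Ultrafilter (ι → ℤ)) (𝔪 : PM (PM K)) (h : C(K, ℝ)) (i : ι) : ℝ :=
  ∫ κ, VV κ (fun w => h (w i)) (crs K {l | l ≠ i}) ∂(rowLim p 𝔪 : Measure (PM (ι → K)))

end Action

/-- Time configurations whose gaps tend to infinity. -/
def sepF (ι : Type) : Filter (ι → ℤ) :=
  ⨅ G : ℕ, 𝓟 {e | ∀ i j, i ≠ j → (G : ℤ) ≤ |e i - e j|}

section Sigma
variable {Ω : Type} {mΩ : MeasurableSpace Ω}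

/-- Conditional independence of `𝒜` and `𝒞` given `ℬ` (used with `ℬ ≤ 𝒞 ≤ mΩ`, `𝒜 ≤ mΩ`). -/
def CI (Θ : Measure Ω) (𝒜 ℬ 𝒞 : MeasurableSpace Ω) : Prop :=
  ∀ A : Set Ω, MeasurableSet[𝒜] A →
    AEStronglyMeasurable[ℬ] (Θ[A.indicator (fun _ => (1 : ℝ)) | 𝒞]) Θ

/-- The sigma-algebras `m i`, `i ∈ S`, are independent. -/
def IndOn {ι : Type} (Θ : Measure Ω) (m : ι → MeasurableSpace Ω) (S : Set ι) : Prop :=
  iIndep (fun i : S => m i) Θ

/-- Every `𝒟`-measurable set is null or conull. -/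
def Triv (Θ : Measure Ω) (𝒟 : MeasurableSpace Ω) : Prop :=
  ∀ A : Set Ω, MeasurableSet[𝒟] A → Θ A = 0 ∨ Θ Aᶜ = 0

/-- Three pairwise independent columns `𝒞 t` with sub-sigma-algebras `𝒜 t` that are sated. -/
structure Star (Θ : Measure Ω) (𝒜 𝒞 : Fin 3 → MeasurableSpace Ω) : Prop where
  le : ∀ t, 𝒜 t ≤ 𝒞 t
  le' : ∀ t, 𝒞 t ≤ mΩ
  ind : ∀ t u, t ≠ u → Indep (𝒞 t) (𝒞 u) Θ
  ci : ∀ t u v, t ≠ u → t ≠ v → u ≠ v → CI Θ (𝒜 t) (𝒜 u ⊔ 𝒜 v) (𝒞 u ⊔ 𝒞 v)

/-- The three by three grid: `𝒜 s t` is the entry in row `s` and column `t`. -/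
structure G33 (Θ : Measure Ω) (𝒜 : Fin 3 → Fin 3 → MeasurableSpace Ω)
    (𝒞 : Fin 3 → MeasurableSpace Ω) : Prop where
  one : ∀ s, Star Θ (𝒜 s) 𝒞
  two : ∀ s s', s ≠ s' → Star Θ (fun t => 𝒜 s t ⊔ 𝒜 s' t) 𝒞
  row : ∀ s s', s ≠ s' → Indep (⨆ t, 𝒜 s t) (⨆ t, 𝒜 s' t) Θ

/-- `χ` is the middle component of a character for the three sigma-algebras. -/
def ChO (Θ : Measure Ω) (𝒜₀ 𝒜₁ 𝒜₂ : MeasurableSpace Ω) (χ : Ω → ℂ) : Prop :=
  Measurable[𝒜₁] χ ∧ (∀ ω, ‖χ ω‖ = 1) ∧ ∃ χ₀ χ₂ : Ω → ℂ, Measurable[𝒜₀] χ₀ ∧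
    Measurable[𝒜₂] χ₂ ∧ (∀ ω, ‖χ₀ ω‖ = 1) ∧ (∀ ω, ‖χ₂ ω‖ = 1) ∧
    ∀ᵐ ω ∂Θ, χ₀ ω * χ ω * χ₂ ω = 1

/-- `u` is in the closed span in `L²` of the functions with property `P`. -/
def InSpan (Θ : Measure Ω) (P : (Ω → ℂ) → Prop) (u : Ω → ℂ) : Prop :=
  ∀ ε : ℝ, 0 < ε → ∃ (n : ℕ) (c : Fin n → ℂ) (χ : Fin n → Ω → ℂ), (∀ j, P (χ j)) ∧
    ∫ ω, ‖u ω - ∑ j, c j * χ j ω‖ ^ 2 ∂Θ < ε

/-- Bounded measurable complex function. -/
def BM {X : Type} [MeasurableSpace X] (f : X → ℂ) : Prop := Measurable f ∧ ∃ C : ℝ, ∀ ω, ‖f ω‖ ≤ C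

end Sigma

section Grid
variable {K Y : Type} [MeasurableSpace K] [MeasurableSpace Y] {ι α : Type}

/-- The sigma-algebra of the coordinates in `D`. -/
def cσ (K : Type) [mK : MeasurableSpace K] (D : Set ι) : MeasurableSpace (ι → K) :=
  ⨆ i ∈ D, mK.comap fun w => w i

/-- The sigma-algebra of the grid entries in the columns `D` and the rows `S`. -/
def gσ (K : Type) [mK : MeasurableSpace K] (D : Set ι) (S : Set α) :
    MeasurableSpace (ι → α → K) :=
  ⨆ i ∈ D, ⨆ s ∈ S, mK.comap fun w => w i s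

/-- The three blocks `{a}`, `{b}` and the rest. -/
def blk (a b : ι) : Fin 3 → Set ι := ![{a}, {b}, {l | l ≠ a ∧ l ≠ b}]

/-- The properties of a typical grid. -/
structure GH (Θ : Measure (ι → α → K)) (𝒮 : Set (Set α)) : Prop where
  h1 : ∀ S ∈ 𝒮, ∀ i, CI Θ (gσ K {i} S) (gσ K {l | l ≠ i} S) (gσ K {l | l ≠ i} univ)
  h2 : ∀ J : Set ι, J ≠ univ → IndOn Θ (fun i => gσ K {i} (univ : Set α)) J
  h3 : ∀ S ∈ 𝒮, IndOn Θ (fun s => gσ K (univ : Set ι) {s}) S

/-- `χ (w t₁)` is the middle component of a character of `κ`. -/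
def IsChar (κ : Measure (ι → K)) (t₀ t₁ : ι) (χ : K → ℂ) : Prop :=
  Measurable χ ∧ (∀ x, ‖χ x‖ = 1) ∧
    ChO κ (cσ K {t₀}) (cσ K {t₁}) (cσ K {l | l ≠ t₀ ∧ l ≠ t₁}) fun w => χ (w t₁)

/-- A character correlated with the base. -/
def CorChar (π : K → Y) (κ : Measure (ι → K)) (t₀ t₁ : ι) (χ : K → ℂ) : Prop :=
  IsChar κ t₀ t₁ χ ∧ ∃ h : Y → ℂ, BM h ∧ ∫ w, h (π (w t₁)) * conj (χ (w t₁)) ∂κ ≠ 0

/-- `E[E[v (w t) | other slots] | slot t] = F (w t)`. -/
def JJ (κ : Measure (ι → K)) (t : ι) (v F : K → ℂ) : Prop :=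
  κ[κ[fun w => v (w t) | cσ K {l | l ≠ t}] | cσ K {t}] =ᵐ[κ] fun w => F (w t)

/-- `E[v (w t) | other slots] = F (w t)`. -/
def Rel (κ : Measure (ι → K)) (t : ι) (v F : K → ℂ) : Prop :=
  κ[fun w => v (w t) | cσ K {l | l ≠ t}] =ᵐ[κ] fun w => F (w t)

/-- A coupling over the base identifying the correlated characters of `κ` and `κ'`. -/
def IsoC (π : K → Y) (κ κ' : Measure (ι → K)) (t₀ t₁ : ι) : Prop :=
  ∃ ς : Measure (Bool → K), IsProbabilityMeasure ς ∧
    ς.map (fun w => w false) = κ.map (fun w => w t₁) ∧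
    ς.map (fun w => w true) = κ'.map (fun w => w t₁) ∧
    (∀ᵐ w ∂ς, π (w false) = π (w true)) ∧
    (∀ χ, CorChar π κ t₀ t₁ χ → ∃ χ', IsChar κ' t₀ t₁ χ' ∧ ∀ᵐ w ∂ς, χ (w false) = χ' (w true)) ∧
    (∀ χ', CorChar π κ' t₀ t₁ χ' → ∃ χ, IsChar κ t₀ t₁ χ ∧ ∀ᵐ w ∂ς, χ (w false) = χ' (w true))

/-- The property of a relatively independent coupling over the base that we use. -/
def RIProp (π : K → Y) (ς : Measure (Bool → K)) : Prop :=
  ∀ F F' : K → ℂ, BM F → BM F' → (∀ᵐ w ∂ς, F (w false) = F' (w true)) →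
    ∃ g : Y → ℂ, BM g ∧ ∀ᵐ w ∂ς, F (w false) = g (π (w false)) ∧ F' (w true) = g (π (w true))

end Grid

section Main
variable {K Y : Type} [TopologicalSpace K] [MeasurableSpace K] [Nice K]
  [AddAction ℤ K] [ContinuousConstVAdd ℤ K]
  [TopologicalSpace Y] [MeasurableSpace Y] [Nice Y] [AddAction ℤ Y] [ContinuousConstVAdd ℤ Y]
  {ι : Type} [Fintype ι]

/-- Satedness of the conditional expectations given the other slots. -/
def SatS (p : Ultrafilter (ι → ℤ)) (𝔪 : PM (PM K)) : Prop :=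
  ∀ (α : Type) [Fintype α] (s : α) (𝔩 : PM (PM (α → K))), Inv 𝔩 →
    pmap (pmap (cev K s)) 𝔩 = 𝔪 → ∀ i : ι,
      ∀ᵐ Θ : PM (ι → α → K) ∂(rowLim p 𝔩 : Measure (PM (ι → α → K))),
        CI (Θ : Measure (ι → α → K)) (gσ K {i} {s}) (gσ K {l | l ≠ i} {s})
          (gσ K {l | l ≠ i} univ)

/-- Proper subfamilies of coordinates of the limit joining are independent. -/
def PropInd (p : Ultrafilter (ι → ℤ)) (μY : PM Y) : Prop :=
  ∀ S : Set ι, S ≠ univ → IndOn (nuLim p μY : Measure (ι → Y)) (fun i => cσ Y {i}) S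

/-- The standing hypotheses of the inductive step. -/
structure Setup (p : Ultrafilter (ι → ℤ)) (μY : PM Y) (π : C(K, Y)) (𝔪 : PM (PM K)) : Prop where
  eqv : Eqv π
  inv : Inv μY
  sys : Sys π μY 𝔪
  sated : Sated (baseF π) 𝔪
  satS : SatS p 𝔪
  prop : PropInd p μY

/-- Mixing for sets. -/
def MixY (μY : PM Y) : Prop :=
  ∀ A B : Set Y, MeasurableSet A → MeasurableSet B →
    Tendsto (fun n : ℤ => (μY : Measure Y).real (A ∩ (fun y => n +ᵥ y) ⁻¹' B)) cofinite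
      (𝓝 ((μY : Measure Y).real A * (μY : Measure Y).real B))

/-- Multiple mixing along `ι`-indexed configurations. -/
def MixK (μY : PM Y) (ι : Type) [Fintype ι] : Prop :=
  ∀ f : ι → Y → ℂ, (∀ l, BM (f l)) →
    Tendsto (fun e : ι → ℤ => ∫ y, ∏ l, f l (e l +ᵥ y) ∂(μY : Measure Y)) (sepF ι)
      (𝓝 (∏ l, ∫ y, f l y ∂(μY : Measure Y)))

/-- An abstract group of characters on a fibre `X` with measure `μ` over the base, with its automorphism. -/
structure GData {X : Type} [MeasurableSpace X] (μ : Measure X) (π : X → Y) (G : Type)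
    [CommGroup G] (r : G → X → ℂ) (σ : MulAut G) : Prop where
  meas : ∀ a, Measurable (r a)
  norm : ∀ a x, ‖r a x‖ = 1
  mul : ∀ a b, ∀ᵐ x ∂μ, r (a * b) x = r a x * r b x
  dich : ∀ a, ∫ x, r a x ∂μ = 0 ∨ ∃ z : ℂ, ∀ᵐ x ∂μ, r a x = z
  aut : ∀ (a : G) (h : Y → ℂ), BM h →
    ∫ x, h ((1 : ℤ) +ᵥ π x) * conj (r (σ a) x) ∂μ = ∫ x, h (π x) * conj (r a x) ∂μ

end Main

end Vale.Agent.P102
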